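import Mathlib
import Vale.Agent.Lib.P137.helper41.Defs

/-!
# P137 pool job F (third copy, helper60): the Hardy inequality with weight `1 / |x|` for the
centered averages of a radially nonincreasing function, by Tonelli, given the tail bound
-/

namespace Vale.Agent.Lib.P137.H60

open Vale.Agent.Lib.P137 MeasureTheory Metric
open scoped ENNReal

/-- The weight `x ↦ 1 / (|B(0, |x|)| |x|)` in explicit (measurable) form. -/
noncomputable def wt (d : ℕ) (x : E d) : ℝ≥0∞ :=
  (ENNReal.ofReal (‖x‖ ^ d) * volume (ball (0 : E d) 1))⁻¹ / ENNReal.ofReal ‖x‖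

theorem wt_eq {d : ℕ} (hd : 1 ≤ d) (x : E d) :
    (volume (ball (0 : E d) ‖x‖))⁻¹ / ENNReal.ofReal ‖x‖ = wt d x := by
  have : Nontrivial (E d) := by
    have : Nonempty (Fin d) := ⟨⟨0, by omega⟩⟩
    infer_instance
  unfold wt
  rw [Measure.addHaar_ball volume (0 : E d) (norm_nonneg x)]
  simp

theorem measurable_wt (d : ℕ) : Measurable (wt d) := by
  unfold wt
  refine Measurable.div ?_ (ENNReal.measurable_ofReal.comp measurable_norm)
  refine Measurable.inv ?_
  exact (ENNReal.measurable_ofReal.comp (measurable_norm.pow_const d)).mul_const _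

/-- The kernel of the Tonelli argument. -/
noncomputable def ker (d : ℕ) (F : ℝ → ℝ≥0∞) (x z : E d) : ℝ≥0∞ :=
  F ‖z‖ * (if ‖z‖ < ‖x‖ then (1 : ℝ≥0∞) else 0) * wt d x

theorem measurable_ker (d : ℕ) (F : ℝ → ℝ≥0∞) (hF : Antitone F) :
    Measurable (Function.uncurry (ker d F)) := by
  have h1 : Measurable (fun p : E d × E d => F ‖p.2‖) :=
    hF.measurable.comp (measurable_norm.comp measurable_snd)
  have hS : MeasurableSet {p : E d × E d | ‖p.2‖ < ‖p.1‖} :=
    measurableSet_lt (measurable_norm.comp measurable_snd) (measurable_norm.comp measurable_fst)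
  have h2 : Measurable (fun p : E d × E d => if ‖p.2‖ < ‖p.1‖ then (1 : ℝ≥0∞) else 0) :=
    Measurable.ite hS measurable_const measurable_const
  have h3 : Measurable (fun p : E d × E d => wt d p.1) := (measurable_wt d).comp measurable_fst
  exact (h1.mul h2).mul h3

theorem hardy_of {d : ℕ} (hd : 1 ≤ d) (F : ℝ → ℝ≥0∞) (hF : Antitone F)
    (htail : ∀ a : ℝ, 0 < a → ∫⁻ x in {x : E d | a < ‖x‖},
      (volume (ball (0 : E d) ‖x‖))⁻¹ / ENNReal.ofReal ‖x‖ ≤ 2 ^ (d + 1) / ENNReal.ofReal a) :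
    ∫⁻ x : E d, cavg d F ‖x‖ / ENNReal.ofReal ‖x‖ ≤
      2 ^ (d + 1) * ∫⁻ z : E d, F ‖z‖ / ENNReal.ofReal ‖z‖ := by
  -- Step 1: pointwise bound by the inner integral of the kernel
  have step1 : ∀ x : E d, cavg d F ‖x‖ / ENNReal.ofReal ‖x‖ ≤ ∫⁻ z, ker d F x z := by
    intro x
    have e1 : cavg d F ‖x‖ / ENNReal.ofReal ‖x‖
        = (∫⁻ z in ball (0 : E d) ‖x‖, F ‖z‖) * wt d x := by
      rw [← wt_eq hd x]
      unfold cavg
      simp only [div_eq_mul_inv, mul_assoc]
    have e2 : ∫⁻ z in ball (0 : E d) ‖x‖, F ‖z‖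
        = ∫⁻ z : E d, F ‖z‖ * (if ‖z‖ < ‖x‖ then (1 : ℝ≥0∞) else 0) := by
      rw [← lintegral_indicator measurableSet_ball]
      refine lintegral_congr (fun z => ?_)
      by_cases hz : ‖z‖ < ‖x‖
      · simp [hz]
      · simp [hz]
    rw [e1, e2]
    exact lintegral_mul_const_le _ _
  -- Step 2: Tonelli
  have step2 : ∫⁻ x, ∫⁻ z, ker d F x z = ∫⁻ z, ∫⁻ x, ker d F x z :=
    lintegral_lintegral_swap (measurable_ker d F hF).aemeasurable
  -- Step 3: the inner integral in `x`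
  have step3 : ∀ z : E d, ∫⁻ x, ker d F x z
      ≤ F ‖z‖ * (2 ^ (d + 1) / ENNReal.ofReal ‖z‖) := by
    intro z
    have hm : Measurable (fun x : E d => (if ‖z‖ < ‖x‖ then (1 : ℝ≥0∞) else 0) * wt d x) := by
      have hS : MeasurableSet {x : E d | ‖z‖ < ‖x‖} :=
        measurableSet_lt measurable_const measurable_norm
      exact (Measurable.ite hS measurable_const measurable_const).mul (measurable_wt d)
    have e1 : ∫⁻ x, ker d F x z
        = F ‖z‖ * ∫⁻ x, (if ‖z‖ < ‖x‖ then (1 : ℝ≥0∞) else 0) * wt d x := by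
      rw [← lintegral_const_mul _ hm]
      refine lintegral_congr (fun x => ?_)
      unfold ker
      rw [mul_assoc]
    have e2 : ∫⁻ x, (if ‖z‖ < ‖x‖ then (1 : ℝ≥0∞) else 0) * wt d x
        = ∫⁻ x in {x : E d | ‖z‖ < ‖x‖},
            (volume (ball (0 : E d) ‖x‖))⁻¹ / ENNReal.ofReal ‖x‖ := by
      have hS : MeasurableSet {x : E d | ‖z‖ < ‖x‖} :=
        measurableSet_lt measurable_const measurable_norm
      rw [← lintegral_indicator hS]
      refine lintegral_congr (fun x => ?_)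
      by_cases hx : ‖z‖ < ‖x‖
      · have hx' : x ∈ {x : E d | ‖z‖ < ‖x‖} := hx
        rw [Set.indicator_of_mem hx', if_pos hx, one_mul, wt_eq hd x]
      · have hx' : x ∉ {x : E d | ‖z‖ < ‖x‖} := hx
        rw [Set.indicator_of_notMem hx', if_neg hx, zero_mul]
    rw [e1, e2]
    by_cases hz : z = 0
    · subst hz
      have h2 : (2 : ℝ≥0∞) ^ (d + 1) / ENNReal.ofReal ‖(0 : E d)‖ = ⊤ := by
        rw [norm_zero, ENNReal.ofReal_zero]
        exact ENNReal.div_zero (by positivity)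
      rw [h2]
      gcongr
      exact le_top
    · gcongr
      exact htail ‖z‖ (norm_pos_iff.mpr hz)
  calc ∫⁻ x : E d, cavg d F ‖x‖ / ENNReal.ofReal ‖x‖
      ≤ ∫⁻ x, ∫⁻ z, ker d F x z := lintegral_mono step1
    _ = ∫⁻ z, ∫⁻ x, ker d F x z := step2
    _ ≤ ∫⁻ z : E d, F ‖z‖ * (2 ^ (d + 1) / ENNReal.ofReal ‖z‖) := lintegral_mono step3
    _ = ∫⁻ z : E d, 2 ^ (d + 1) * (F ‖z‖ / ENNReal.ofReal ‖z‖) := by
        refine lintegral_congr (fun z => ?_)
        simp only [div_eq_mul_inv]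
        ring
    _ = 2 ^ (d + 1) * ∫⁻ z : E d, F ‖z‖ / ENNReal.ofReal ‖z‖ :=
        lintegral_const_mul' _ _ (by simp)

end Vale.Agent.Lib.P137.H60
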